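import Vale.Agent.P076.Endpoint.Assembly

/-!
P076: failure of pointwise convergence in the endpoint Besov scale.
-/

namespace Vale.Agent.Results.P076.BesovEndpoint

open MeasureTheory Filter Topology
open scoped RealInnerProductSpace

theorem result : ∀ n : ℕ, 2 ≤ n → ∀ q : ℝ, 2 * ((n : ℝ) + 1) / n < q →
    ∃ F : EuclideanSpace ℝ (Fin n) → ℂ, MemLp F 2 volume ∧
      (∀ s : ℝ, s < (n : ℝ) / (2 * ((n : ℝ) + 1)) →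
        ∫⁻ ξ, ENNReal.ofReal ((1 + ‖ξ‖ ^ 2) ^ s * ‖F ξ‖ ^ 2) < ⊤) ∧
      Summable (fun k : ℕ => ((2 : ℝ) ^ ((k : ℝ) * ((n : ℝ) / (2 * ((n : ℝ) + 1))))
        * (∫ ξ in {ξ : EuclideanSpace ℝ (Fin n) | (2 : ℝ) ^ k ≤ ‖ξ‖ ∧ ‖ξ‖ < (2 : ℝ) ^ (k + 1)},
            ‖F ξ‖ ^ 2) ^ ((1 : ℝ) / 2)) ^ q) ∧
      0 < volume {x : EuclideanSpace ℝ (Fin n) | ¬ ∃ (L : ℂ) (g : ℝ → ℂ),
        (∀ᶠ t in 𝓝[>] (0 : ℝ), Tendsto (fun a : ℝ => ((2 * Real.pi) ^ n : ℝ)⁻¹ •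
          ∫ ξ : EuclideanSpace ℝ (Fin n),
            Complex.exp (Complex.I * (⟪x, ξ⟫ : ℝ) - Complex.I * ((t : ℝ) : ℂ) * (‖ξ‖ ^ 2 : ℝ)
              - (a : ℂ) * (‖ξ‖ ^ 2 : ℝ)) * F ξ) (𝓝[>] 0) (𝓝 (g t))) ∧
        Tendsto g (𝓝[>] 0) (𝓝 L)} := by
  intro n hn q hq
  obtain ⟨m, rfl⟩ : ∃ m, n = m + 1 := ⟨n - 1, by omega⟩
  push_cast at hq
  simp only [Nat.cast_add, Nat.cast_one]
  have h := Vale.Agent.P076.Endpoint.counterexample m (by omega) q hq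
  simpa only [Vale.Agent.P076.Endpoint.sExp, Vale.Agent.P076.Endpoint.block,
    Vale.Agent.P076.Endpoint.evo] using h

end Vale.Agent.Results.P076.BesovEndpoint
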